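import Vale.Agent.P146.R2.H952.XSpec
import Vale.Agent.P146.R3.H316.Order2

/-!
# P146: the pressure of the pushed ensemble
-/

open MeasureTheory ProbabilityTheory Matrix Filter Topology
open scoped Matrix.Norms.L2Operator

namespace Vale.Agent.P146.R2.H952.X

open Vale.Agent.P166 Vale.Agent.P146 Vale.Agent.P146.H605
open Vale.Agent.P146.R3 (chR sc muS PV)
open Vale.Agent.P146.R3.H432 (Qm Om)
open Vale.Agent.P146.R3.H952 (MinProf)
open Vale.Agent.P146.Sk (Wm Ix)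

/-- Row Y. -/
theorem stY : StY := by
  intro β hβ
  obtain ⟨a, -, h⟩ := Vale.Agent.P146.R3.P316.order2
  obtain ⟨ha, p, x, hx, -, -, hmono, h01, -, hint, hsl, -⟩ := h β hβ
  have hβ0 : 0 < β := by linarith
  have h1 : ∀ᶠ y in 𝓝[>] (0 : ℝ), x y / y < a β + 1 := hsl.eventually_lt_const (by linarith)
  obtain ⟨y₂, hy₂, h2⟩ := (mem_nhdsGT_iff_exists_Ioo_subset).1 h1
  have hy₂' : 0 < y₂ := hy₂
  refine ⟨x, β * (a β + 1), min (y₂ / 2) 1, hx, by positivity, lt_min (by linarith) one_pos,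
    min_le_right _ _, fun y hy0 hy1 => ?_⟩
  have hy2 : y < y₂ := lt_of_le_of_lt (hy1.trans (min_le_left _ _)) (by linarith)
  have hy3 : y ≤ 1 := hy1.trans (min_le_right _ _)
  have i1 : IntervalIntegrable x volume 0 y := hmono.intervalIntegrable
  have i2 : IntervalIntegrable x volume y 1 := hmono.intervalIntegrable
  have h3 : ∫ u in (0 : ℝ)..y, x u ≤ ∫ u in (0 : ℝ)..y, (a β + 1) * u := by
    refine intervalIntegral.integral_mono_on_of_le_Ioo hy0 i1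
      ((continuous_const.mul continuous_id).intervalIntegrable _ _) fun u hu => ?_
    have h4 : x u / u < a β + 1 := h2 ⟨hu.1, hu.2.trans hy2⟩
    rw [div_lt_iff₀ hu.1] at h4
    exact h4.le
  rw [intervalIntegral.integral_const_mul, integral_id] at h3
  have h5 : (∫ u in (0 : ℝ)..y, x u) + ∫ u in y..1, x u = ∫ u in (0 : ℝ)..1, x u :=
    intervalIntegral.integral_add_adjacent_intervals i1 i2
  have h6 : β * (∫ u in y..1, x u) = 1 - β * ∫ u in (0 : ℝ)..y, x u := by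
    have h := hint
    rw [← h5, mul_add] at h
    linarith
  rw [h6]
  have h7 := mul_le_mul_of_nonneg_left h3 hβ0.le
  have h8 : 0 ≤ β * (a β + 1) * y ^ 2 := by positivity
  have h9 : β * ((a β + 1) * ((y ^ 2 - 0 ^ 2) / 2)) = β * (a β + 1) * y ^ 2 / 2 := by ring
  rw [h9] at h7
  linarith

lemma rpow_52 {L : ℝ} (hL : 0 < L) : L ^ (-(5 / 2) : ℝ) = 1 / (L ^ 2 * √L) := by
  rw [Real.rpow_neg hL.le, one_div]
  congr 1
  rw [Real.sqrt_eq_rpow, ← Real.rpow_natCast, ← Real.rpow_add hL]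
  norm_num

/-- **The pressure of the pushed ensemble.** -/
theorem kp (hK : StK) (h2 : StH2) (hJ : StJ) (hP : StP) : ∀ β : ℝ, 1 < β → ∀ δ : ℝ, 0 < δ →
    δ ≤ 1 → ∃ (c3 : ℝ) (L0 : ℕ), 0 < c3 ∧ 2 ≤ L0 ∧ ∀ L : ℕ, L0 ≤ L → ∃ c : ℕ → ℝ,
      (∀ k, 0 ≤ c k ∧ c k ≤ 2 * (δ / L ^ 4)) ∧
      ∀ᵐ ω ∂Qm, ∀ᶠ N : ℕ in atTop, pressure N 1
        (β • (Wm N (Vale.Agent.P146.R3.H432.zz N ω) -
          H729.Tr.hm L c (Wm N (Vale.Agent.P146.R3.H432.zz N ω)))) ≤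
        Sh.P0 β - c3 * (L : ℝ) ^ (-(5 / 2) : ℝ) := by
  intro β hβ δ hδ hδ1
  have hβ0 : 0 < β := by linarith
  obtain ⟨τ, κ, hτ, hκ, hH⟩ := h2 (δ / 4) (by linarith) (by linarith)
  obtain ⟨x, A, y₁, hx, hA, hy₁, hy₁1, hY⟩ := stY β hβ
  obtain ⟨c4, hc4⟩ : ∃ c4, c4 = β * τ * √(κ / (2 * A)) / 2 := ⟨_, rfl⟩
  have hc40 : 0 < c4 := by rw [hc4]; positivity
  obtain ⟨L0, hL0⟩ := exists_nat_ge (max 2 (max (κ / (2 * A * y₁ ^ 2)) (4 * β * δ / c4)))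
  have hL02 : (2 : ℝ) ≤ L0 := (le_max_left _ _).trans hL0
  refine ⟨c4 / 2, L0, by linarith, by exact_mod_cast hL02, fun L hL => ?_⟩
  have hLL : (L0 : ℝ) ≤ L := by exact_mod_cast hL
  have hLm := hL0.trans hLL
  have hL2 : (2 : ℝ) ≤ L := (le_max_left _ _).trans hLm
  have hL3 : κ / (2 * A * y₁ ^ 2) ≤ L :=
    ((le_max_left _ _).trans (le_max_right _ _)).trans hLm
  have hL4 : 4 * β * δ / c4 ≤ L := ((le_max_right _ _).trans (le_max_right _ _)).trans hLm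
  have hLp : (0 : ℝ) < L := by linarith
  have hLn : 2 ≤ L := by exact_mod_cast hL2
  obtain ⟨c, h, hc, hcont, hrep, hpos, hedge⟩ := hK L hLn (δ / L ^ 4) (by positivity)
  refine ⟨c, hc, ?_⟩
  obtain ⟨hprob, hcomp, v, hv, hlim⟩ := hP β hβ0 L c
  have hε : (0 : ℝ) < 1 / (L : ℝ) ^ 2 := by positivity
  have hε1 : 1 / (L : ℝ) ^ 2 ≤ 1 := by
    rw [div_le_one (by positivity)]
    nlinarith
  have hmu : muH β L c = sc.map (fun x => β * (x - (h x - 2 * (δ / L ^ 4)))) := by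
    unfold muH
    congr 1
    funext x
    rw [hrep]
  obtain ⟨hA1, hA2⟩ := hH β hβ0 (1 / (L : ℝ) ^ 2) hε hε1 h (2 * (δ / L ^ 4)) hcont hpos
    (fun x hx => by
      have := hedge x hx
      have e : δ / (L : ℝ) ^ 4 * L ^ 2 / 4 = δ / 4 * (1 / (L : ℝ) ^ 2) := by
        field_simp
      rw [e] at this
      exact this) (muH β L c) hmu
  have hsq : √(1 / (L : ℝ) ^ 2) = 1 / L := by
    rw [Real.sqrt_div zero_le_one, Real.sqrt_one, Real.sqrt_sq hLp.le]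
  rw [hsq] at hA2
  -- the point `y₀`
  obtain ⟨y₀, hy₀⟩ : ∃ y₀, y₀ = √(κ / (2 * A)) / √L := ⟨_, rfl⟩
  have hsL : 0 < √(L : ℝ) := Real.sqrt_pos.2 hLp
  have hy₀0 : 0 ≤ y₀ := by rw [hy₀]; positivity
  have hy₀sq : y₀ ^ 2 = κ / (2 * A) / L := by
    rw [hy₀, div_pow, Real.sq_sqrt (by positivity), Real.sq_sqrt hLp.le]
  have hy₀1 : y₀ ≤ y₁ := by
    refine le_of_sq_le_sq ?_ hy₁.le
    rw [hy₀sq, div_le_iff₀ hLp]
    rw [div_le_iff₀ (by positivity)] at hL3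
    rw [div_le_iff₀ (by positivity)]
    nlinarith
  have hYy := hY y₀ hy₀0 hy₀1
  have hstrict : 1 - κ * (1 / L) < β * ∫ u in y₀..1, x u := by
    refine lt_of_lt_of_le ?_ hYy
    rw [hy₀sq]
    have e : A * (κ / (2 * A) / L) = κ * (1 / L) / 2 := by
      field_simp
    rw [e]
    have : 0 < κ * (1 / (L : ℝ)) := by positivity
    linarith
  have hfin := hJ hβ.le hx (muH β L c) hcomp (β * (2 * (δ / L ^ 4)))
    (β * (τ * (1 / (L : ℝ) ^ 2))) (κ * (1 / L)) y₀ (by positivity) hy₀0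
    (hy₀1.trans hy₁1) hA1 hA2 hstrict v hv
  have hgain : β * (τ * (1 / (L : ℝ) ^ 2)) * y₀ / 2 = c4 * (1 / (L ^ 2 * √L)) := by
    rw [hy₀, hc4]
    field_simp
  rw [hgain] at hfin
  have hloss : β * (2 * (δ / (L : ℝ) ^ 4)) / 2 ≤ c4 / 4 * (1 / (L ^ 2 * √L)) := by
    have hsqL : √(L : ℝ) ≤ L := by
      rw [Real.sqrt_le_left hLp.le]
      nlinarith
    have e : β * (2 * (δ / (L : ℝ) ^ 4)) / 2 = β * δ / (L ^ 2 * L ^ 2) := by
      field_simp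
    rw [e, div_le_iff₀ (by positivity)]
    rw [div_le_iff₀ hc40] at hL4
    have e2 : c4 / 4 * (1 / ((L : ℝ) ^ 2 * √L)) * (L ^ 2 * L ^ 2) = c4 / 4 * (L ^ 2 / √L) := by
      field_simp
    rw [e2]
    have h3 : (L : ℝ) ≤ L ^ 2 / √L := by
      rw [le_div_iff₀ hsL]
      nlinarith
    nlinarith
  have hpos2 : 0 < c4 * (1 / ((L : ℝ) ^ 2 * √L)) := by positivity
  have hvlt : v < Sh.P0 β - c4 / 2 * (L : ℝ) ^ (-(5 / 2) : ℝ) := by
    rw [rpow_52 hLp]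
    linarith
  filter_upwards [hlim] with ω hω
  filter_upwards [hω.eventually_lt_const hvlt] with N hN
  exact hN.le

end Vale.Agent.P146.R2.H952.X
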